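import Claimed.Agent.R316.Pack018
import Claimed.Agent.R316.Pack022
import Claimed.Agent.R316.Pack026_2
import Claimed.Agent.R316.Base.LiYau.KarpLi
import Claimed.Agent.R316.Pack030
import Claimed.Agent.R316.B8M.Export
import Claimed.Agent.R316.Base.Heat.C.Grad
import Claimed.Agent.R316.Base.Heat.C.Avg
import Claimed.Agent.R316.Base.Heat.C.Cut
import Claimed.Agent.R316.Base.Heat.C.Pot

/-!
# Row 316 base layer, `BP-G8`, `BP-G9`, `BP-G10`: heat equation on `(M,g)` (EXPORT FILE)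

Statement file written by helper97.

* Part A (`BP-G9`): estimates for ARBITRARY smooth solutions on `(M,g)` in an `AnaSetting` (maximum principle + the cutoffs `η(ρ/R²)`, `ρ` from `GoodDist`):
  maximum principle for bounded subsolutions, Karp-Li, Li-Yau, Harnack, local Bernstein gradient estimate.
* Part B: existence of `HeatData` (`BP-G8` construction, `BP-G9` bounds, `BP-G10` fields `nt1`, `nt2`).
* Part C: consequences of the FIELDS of an arbitrary `HD : HeatData 𝓜 g` (leaves; no knowledge of the construction).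

Normalisation: `Δ = lap 𝓜 g` is a quarter of Laplace-Beltrami of `|v|² = vᴴ G v`; `|∇u|² = 4 gradSq`; on `ℂⁿ` the kernel is
`(π t)^{-n} exp(-|x-y|²/t)`, Li-Yau reads `gradSq (log u) - ∂_t log u ≤ n/t`.
-/

set_option autoImplicit false
open scoped ContDiff ComplexOrder Topology
open MeasureTheory Filter

namespace Claimed.Agent.R316

variable {V : Type} [NormedAddCommGroup V] [NormedSpace ℝ V] [MeasurableSpace V] [BorelSpace V]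
variable {n : ℕ}

/-- compactly supported cutoffs with TWO-SIDED Laplacian bound at all large scales (from `DyadicCutoffs`, or from the exhaustion `u` of
`PrelimData`). -/
def LapCutoffs (𝓜 : CMfd V (Fin n)) (g : HFam V (Fin n)) (o : V) : Prop :=
  ∃ C : ℝ, ∀ N : ℝ, 1 ≤ N → ∃ φ : V → ℝ, 𝓜.Smooth φ ∧ (∀ y ∈ 𝓜.carrier, 0 ≤ φ y ∧ φ y ≤ 1) ∧
    (∀ y ∈ 𝓜.carrier, hdist 𝓜 g o y ≤ N → φ y = 1) ∧
    (∀ y ∈ 𝓜.carrier, C * N ≤ hdist 𝓜 g o y → φ y = 0) ∧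
    (∀ y ∈ 𝓜.carrier, gradSq 𝓜 g φ y ≤ (C / N) ^ 2) ∧
    (∀ y ∈ 𝓜.carrier, |lap 𝓜 g φ y| ≤ C / N ^ 2)

variable [FiniteDimensional ℝ V]
variable {𝓜 : CMfd V (Fin n)} {g : HFam V (Fin n)}

/-! ## Part A: arbitrary solutions -/

section general

/-- `BK ≥ 0 ⟹ Ric ≥ 0`. -/
theorem s2_ricF_posSemidef (hk : IsKahler 𝓜 g) (hb : BisecNonneg 𝓜 g) {Φ : CE (Fin n) → V}
    {U : Set (CE (Fin n))} (hΦ : 𝓜.IsHol Φ U) {z : CE (Fin n)} (hz : z ∈ U) :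
    (ricF g Φ z).PosSemidef := by
  have hg : IsMetric 𝓜 g := hk.toIsMetric
  rw [posSemidef_iff_qf ((isHForm_ricF hg).herm hΦ z hz)]
  intro v
  obtain ⟨T, d, hdet, hT, -⟩ := exists_simDiag (hg.posDef hΦ z hz) (hg.herm hΦ z hz)
  rw [qf_ricF_eq_sum_bisec hk hΦ hz T hT v]
  exact Finset.sum_nonneg fun a _ => hb Φ U hΦ z hz _ _

/-- `BK > 0 ⟹ Ric > 0`. -/
theorem s2_ricF_posDef (hn : 0 < n) (hk : IsKahler 𝓜 g) (hb : BisecPos 𝓜 g) {Φ : CE (Fin n) → V}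
    {U : Set (CE (Fin n))} (hΦ : 𝓜.IsHol Φ U) {z : CE (Fin n)} (hz : z ∈ U) :
    (ricF g Φ z).PosDef := by
  have hg : IsMetric 𝓜 g := hk.toIsMetric
  haveI : Nonempty (Fin n) := ⟨⟨0, hn⟩⟩
  rw [posDef_iff_qf ((isHForm_ricF hg).herm hΦ z hz)]
  intro v hv
  obtain ⟨T, d, hdet, hT, -⟩ := exists_simDiag (hg.posDef hΦ z hz) (hg.herm hΦ z hz)
  rw [qf_ricF_eq_sum_bisec hk hΦ hz T hT v]
  refine Finset.sum_pos (fun a _ => hb Φ U hΦ z hz _ _ hv ?_) Finset.univ_nonempty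
  intro h0
  apply hdet
  apply Matrix.det_eq_zero_of_column_eq_zero a
  intro l
  exact congrFun h0 l

/-- the standing hypotheses give the analytic setting. -/
theorem anaSetting_of_initialData (I : InitialData 𝓜 g) : AnaSetting 𝓜 g where
  kahler := I.kahler
  conn := I.conn
  proper := I.proper
  ric := fun Φ U hΦ z hz => by
    simpa using s2_ricF_posSemidef I.kahler I.bisec.nonneg hΦ hz
  good := goodDist I.kahler I.conn I.proper I.bisec.nonneg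

/-- **maximum principle for subsolutions bounded above** (barrier `(ρ + 1 + 2 n t)/N`; no growth of the volume is used).
Continuity up to `t = 0` only. -/
theorem heatSub_nonpos_of_bddAbove (S : AnaSetting 𝓜 g) {T : ℝ} (hT : 0 < T) {u : ℝ → V → ℝ}
    (hu : IsHeatSub 𝓜 g (Set.Ioc 0 T) u)
    (hc : ContinuousOn (fun p : ℝ × V => u p.1 p.2) (Set.Icc 0 T ×ˢ 𝓜.carrier))
    (hB : ∃ B : ℝ, ∀ t ∈ Set.Icc 0 T, ∀ x ∈ 𝓜.carrier, u t x ≤ B) (h0 : ∀ x ∈ 𝓜.carrier, u 0 x ≤ 0) :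
    ∀ t ∈ Set.Icc 0 T, ∀ x ∈ 𝓜.carrier, u t x ≤ 0 :=
  ly_heatSub_nonpos_of_bddAbove S hT hu hc hB h0

/-- the same for subsolutions of at most quadratic exponential growth `u ≤ B exp(B r²)` (Tychonoff class; barrier
`(T₁ - t)^{-n'} exp(A ρ/(T₁ - t))` on short time intervals). -/
theorem heatSub_nonpos_of_growth (S : AnaSetting 𝓜 g) {o : V} (ho : o ∈ 𝓜.carrier) {T : ℝ} (hT : 0 < T)
    {u : ℝ → V → ℝ} (hu : IsHeatSub 𝓜 g (Set.Ioc 0 T) u)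
    (hc : ContinuousOn (fun p : ℝ × V => u p.1 p.2) (Set.Icc 0 T ×ˢ 𝓜.carrier))
    (hB : ∃ B : ℝ, ∀ t ∈ Set.Icc 0 T, ∀ x ∈ 𝓜.carrier, u t x ≤ B * Real.exp (B * hdist 𝓜 g o x ^ 2))
    (h0 : ∀ x ∈ 𝓜.carrier, u 0 x ≤ 0) : ∀ t ∈ Set.Icc 0 T, ∀ x ∈ 𝓜.carrier, u t x ≤ 0 :=
  ly_heatSub_nonpos_of_growth S ho hT hu hc hB h0

/-- **Karp-Li `L²` maximum principle.** -/
theorem karp_li (S : AnaSetting 𝓜 g) {o : V} (ho : o ∈ 𝓜.carrier) {T : ℝ} (hT : 0 < T) {u : ℝ → V → ℝ}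
    (hu : IsHeatSub 𝓜 g (Set.Ioc 0 T) u)
    (hc : ContinuousOn (fun p : ℝ × V => u p.1 p.2) (Set.Icc 0 T ×ˢ 𝓜.carrier))
    (hint : ∃ c : ℝ, IntegrableOn
      (fun p : ℝ × V => (max (u p.1 p.2) 0) ^ 2 * Real.exp (-(c * hdist 𝓜 g o p.2 ^ 2)))
      (Set.Icc 0 T ×ˢ Set.univ) (volume.prod (hvol 𝓜 g)))
    (h0 : ∀ x ∈ 𝓜.carrier, u 0 x ≤ 0) : ∀ t ∈ Set.Icc 0 T, ∀ x ∈ 𝓜.carrier, u t x ≤ 0 :=
  ly_karp_li S ho hT hu hc hint h0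

/-- **Li-Yau.** -/
theorem li_yau (S : AnaSetting 𝓜 g) {T : ℝ} (hT : 0 < T) {u : ℝ → V → ℝ}
    (hu : IsHeatSol 𝓜 g (Set.Ioc 0 T) u) (hpos : ∀ t ∈ Set.Ioc 0 T, ∀ x ∈ 𝓜.carrier, 0 < u t x) :
    ∀ t ∈ Set.Ioc 0 T, ∀ x ∈ 𝓜.carrier,
      gradSq 𝓜 g (u t) x / (u t x) ^ 2 - lap 𝓜 g (u t) x / u t x ≤ n / t :=
  ly_li_yau S hT hu hpos

/-- **Harnack inequality.** -/
theorem harnack (S : AnaSetting 𝓜 g) {T : ℝ} (hT : 0 < T) {u : ℝ → V → ℝ}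
    (hu : IsHeatSol 𝓜 g (Set.Ioc 0 T) u) (hpos : ∀ t ∈ Set.Ioc 0 T, ∀ x ∈ 𝓜.carrier, 0 < u t x)
    {t₁ t₂ : ℝ} (h1 : 0 < t₁) (h12 : t₁ < t₂) (h2 : t₂ ≤ T) {x y : V} (hx : x ∈ 𝓜.carrier)
    (hy : y ∈ 𝓜.carrier) :
    u t₁ x ≤ u t₂ y * (t₂ / t₁) ^ n * Real.exp (hdist 𝓜 g x y ^ 2 / (t₂ - t₁)) :=
  ly_harnack S hT hu hpos h1 h12 h2 hx hy

/-- **local Bernstein gradient estimate**: a (global) solution bounded by `A` on the cylinder `B(x₀,R) × [t₀ - R², t₀]`. -/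
theorem bernstein (S : AnaSetting 𝓜 g) : ∃ C : ℝ, ∀ (x₀ : V) (t₀ R A : ℝ) (u : ℝ → V → ℝ), x₀ ∈ 𝓜.carrier →
    0 < R → IsHeatSol 𝓜 g (Set.Icc (t₀ - R ^ 2) t₀) u →
    (∀ t ∈ Set.Icc (t₀ - R ^ 2) t₀, ∀ y ∈ hball 𝓜 g x₀ R, |u t y| ≤ A) →
    gradSq 𝓜 g (u t₀) x₀ ≤ C * A ^ 2 / R ^ 2 :=
  ly_bernstein S

/-- time derivative version: `|Δ u| ≤ C A / R²` at the top centre of the cylinder. -/
theorem bernstein_lap (S : AnaSetting 𝓜 g) : ∃ C : ℝ, ∀ (x₀ : V) (t₀ R A : ℝ) (u : ℝ → V → ℝ),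
    x₀ ∈ 𝓜.carrier → 0 < R → IsHeatSol 𝓜 g (Set.Icc (t₀ - R ^ 2) t₀) u →
    (∀ t ∈ Set.Icc (t₀ - R ^ 2) t₀, ∀ y ∈ hball 𝓜 g x₀ R, |u t y| ≤ A) →
    |lap 𝓜 g (u t₀) x₀| ≤ C * A / R ^ 2 :=
  ly_bernstein_lap S

theorem lapCutoffs_of_dyadicCutoffs (S : AnaSetting 𝓜 g) {o : V} (ho : o ∈ 𝓜.carrier)
    (DC : DyadicCutoffs 𝓜 g o) : LapCutoffs 𝓜 g o :=
  hc_lapCutoffs_of_dyadicCutoffs S ho DC

theorem lapCutoffs_of_prelimData (S : AnaSetting 𝓜 g) {o : V} (ho : o ∈ 𝓜.carrier)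
    (PD : PrelimData 𝓜 g o) : LapCutoffs 𝓜 g o :=
  hc_lapCutoffs_of_prelimData S ho PD

/-- Bochner inequality for solutions (`Ric ≥ 0`): `gradSq u` is a subsolution. -/
theorem isHeatSub_gradSq (S : AnaSetting 𝓜 g) {I : Set ℝ} (hI : IsOpen I) {u : ℝ → V → ℝ}
    (hu : IsHeatSol 𝓜 g I u) : IsHeatSub 𝓜 g I (fun t => gradSq 𝓜 g (u t)) :=
  hc_isHeatSub_gradSq S hI hu

end general

/-! ## Part B: existence -/

/-- **volume comparison** (`BP-G9`, from the heat kernel). -/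
theorem volComparison (S : AnaSetting 𝓜 g) : VolComparison 𝓜 g := by
  obtain ⟨HC⟩ := heatCore_exists S.kahler S.conn S.proper
  exact ly_volComparison HC S

/-- **existence of the heat kernel with all its estimates** (glue, helper201: `BP-G8` `heatCore_exists`, `BP-G9` `lyHeatData`, `BP-G10` `nt1_main`, `nt2_main`, `B8M.stLinLocalReg`).
DO NOT OVERWRITE THIS PROOF WITH A `sorry` WHEN YOU MERGE AN OLDER COPY OF THE FILE. -/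
theorem heatData_exists (S : AnaSetting 𝓜 g) (hb : BisecNonneg 𝓜 g) : Nonempty (HeatData 𝓜 g) := by
  obtain ⟨HC⟩ := heatCore_exists S.kahler S.conn S.proper
  have hReg : S3.StLinLocalReg := B8M.stLinLocalReg
  have KL : KarpLiP 𝓜 g := fun o ho T hT u hu hc hint h0 => ly_karp_li S ho hT hu hc hint h0
  have NK : NTKernel 𝓜 g HC.Hk :=
    { pos := fun _ ht _ hx _ hy => ly_Hk_pos HC S ht hx hy
      integrable := HC.integrable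
      mass := fun _ ht _ hx => ly_mass HC S ht hx
      vol := ly_volComparison HC S
      sol := fun _ ho _ hf => ly_sol HC hReg S ho hf
      init := fun _ ho _ hf hs => ly_init HC hReg S ho hf hs }
  exact ⟨lyHeatData hReg S HC (nt1_main S hb KL NK) (nt2_main S hb KL NK)⟩

/-! ## Part C: consequences of the fields -/

namespace HeatData

variable (HD : HeatData 𝓜 g) {o x : V} {f f' : V → ℝ} {t s : ℝ}

-- EVERY theorem of Part C takes `HD` as its first explicit argument (also those whose statement does not mention it: they use `HD.vol`).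
include HD

theorem Hk_nonneg (S : AnaSetting 𝓜 g) (ht : 0 < t) (x y : V) : 0 ≤ HD.Hk t x y :=
  hc_Hk_nonneg HD ht x y

theorem measurable_Hk (S : AnaSetting 𝓜 g) (ht : 0 < t) :
    Measurable fun p : V × V => HD.Hk t p.1 p.2 :=
  hc_measurable_Hk HD ht

theorem measurable_Hk_right (S : AnaSetting 𝓜 g) (ht : 0 < t) (x : V) : Measurable (HD.Hk t x) :=
  hc_measurable_Hk_right HD ht x

/-! ### volume -/

/-- polynomial volume growth. -/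
theorem Vb_le (S : AnaSetting 𝓜 g) (ho : o ∈ 𝓜.carrier) :
    ∃ C : ℝ, ∀ R : ℝ, 1 ≤ R → Vb 𝓜 g o R ≤ C * R ^ (2 * n) :=
  hc_Vb_le HD ho

/-- balls with different centres. -/
theorem Vb_le_Vb (S : AnaSetting 𝓜 g) : ∃ C : ℝ, ∀ x ∈ 𝓜.carrier, ∀ y ∈ 𝓜.carrier, ∀ r : ℝ, 0 < r →
    Vb 𝓜 g x r ≤ C * (1 + hdist 𝓜 g x y / r) ^ (2 * n) * Vb 𝓜 g y r :=
  hc_Vb_le_Vb HD S

/-- Gaussians are integrable. -/
theorem integrable_gauss (S : AnaSetting 𝓜 g) (ho : o ∈ 𝓜.carrier) {ε : ℝ} (hε : 0 < ε) (A : ℝ) :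
    Integrable (fun y => Real.exp (A * hdist 𝓜 g o y - ε * hdist 𝓜 g o y ^ 2)) (hvol 𝓜 g) :=
  hc_integrable_gauss HD S ho hε A

/-! ### the class `SubGauss` -/

theorem subGauss_of_growth (S : AnaSetting 𝓜 g) (ho : o ∈ 𝓜.carrier)
    (hf : AEStronglyMeasurable f (hvol 𝓜 g)) {A : ℝ}
    (hA : ∀ y ∈ 𝓜.carrier, |f y| ≤ A * Real.exp (A * hdist 𝓜 g o y)) : SubGauss 𝓜 g o f :=
  hc_subGauss_of_growth HD S ho hf hA

theorem subGauss_of_bounded (S : AnaSetting 𝓜 g) (ho : o ∈ 𝓜.carrier)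
    (hf : AEStronglyMeasurable f (hvol 𝓜 g)) {A : ℝ} (hA : ∀ y ∈ 𝓜.carrier, |f y| ≤ A) :
    SubGauss 𝓜 g o f :=
  hc_subGauss_of_bounded HD S ho hf hA

/-- polynomially bounded ball integrals. -/
theorem subGauss_of_ball_integrals (S : AnaSetting 𝓜 g) (ho : o ∈ 𝓜.carrier)
    (hf : AEStronglyMeasurable f (hvol 𝓜 g)) {A : ℝ} {q : ℕ}
    (hA : ∀ R : ℝ, 1 ≤ R → IntegrableOn f (hball 𝓜 g o R) (hvol 𝓜 g) ∧
      ∫ y in hball 𝓜 g o R, |f y| ∂(hvol 𝓜 g) ≤ A * R ^ q) : SubGauss 𝓜 g o f :=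
  hc_subGauss_of_ball_integrals HD S ho hf hA

/-- independence of the base point. -/
theorem subGauss_base (S : AnaSetting 𝓜 g) (ho : o ∈ 𝓜.carrier) {o' : V} (ho' : o' ∈ 𝓜.carrier)
    (hf : SubGauss 𝓜 g o f) : SubGauss 𝓜 g o' f :=
  hc_subGauss_base S ho ho' hf

theorem integrable_Hk_mul (S : AnaSetting 𝓜 g) (ho : o ∈ 𝓜.carrier) (hf : SubGauss 𝓜 g o f)
    (ht : 0 < t) (hx : x ∈ 𝓜.carrier) : Integrable (fun y => HD.Hk t x y * f y) (hvol 𝓜 g) :=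
  hc_integrable_Hk_mul HD S ho hf ht hx

theorem subGauss_P (S : AnaSetting 𝓜 g) (ho : o ∈ 𝓜.carrier) (hf : SubGauss 𝓜 g o f) (ht : 0 < t) :
    SubGauss 𝓜 g o (HD.P t f) :=
  hc_subGauss_P HD S ho hf ht

/-! ### the semigroup -/

theorem isHeatSol_P (S : AnaSetting 𝓜 g) (ho : o ∈ 𝓜.carrier) (hf : SubGauss 𝓜 g o f) :
    IsHeatSol 𝓜 g (Set.Ioi 0) (fun t => HD.P t f) :=
  hc_isHeatSol_P HD ho hf

theorem P_const (ht : 0 < t) (hx : x ∈ 𝓜.carrier) (c : ℝ) : HD.P t (fun _ => c) x = c :=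
  hc_P_const HD ht hx c

theorem P_add (S : AnaSetting 𝓜 g) (ho : o ∈ 𝓜.carrier) (hf : SubGauss 𝓜 g o f)
    (hf' : SubGauss 𝓜 g o f') (ht : 0 < t) (hx : x ∈ 𝓜.carrier) :
    HD.P t (fun y => f y + f' y) x = HD.P t f x + HD.P t f' x :=
  hc_P_add HD S ho hf hf' ht hx

theorem P_smul (c : ℝ) : HD.P t (fun y => c * f y) x = c * HD.P t f x :=
  hc_P_smul HD c

theorem P_mono (S : AnaSetting 𝓜 g) (ho : o ∈ 𝓜.carrier) (hf : SubGauss 𝓜 g o f)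
    (hf' : SubGauss 𝓜 g o f') (hle : ∀ y ∈ 𝓜.carrier, f y ≤ f' y) (ht : 0 < t) (hx : x ∈ 𝓜.carrier) :
    HD.P t f x ≤ HD.P t f' x :=
  hc_P_mono HD S ho hf hf' hle ht hx

theorem P_nonneg (S : AnaSetting 𝓜 g) (hf : ∀ y ∈ 𝓜.carrier, 0 ≤ f y) (ht : 0 < t) (x : V) :
    0 ≤ HD.P t f x :=
  hc_P_nonneg HD hf ht x

theorem P_P (S : AnaSetting 𝓜 g) (ho : o ∈ 𝓜.carrier) (hf : SubGauss 𝓜 g o f) (hs : 0 < s)
    (ht : 0 < t) (hx : x ∈ 𝓜.carrier) : HD.P s (HD.P t f) x = HD.P (s + t) f x :=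
  hc_P_P HD S ho hf hs ht hx

/-- second moment. -/
theorem moment2 (S : AnaSetting 𝓜 g) : ∃ C : ℝ, ∀ a : ℝ, 0 < a → ∀ x ∈ 𝓜.carrier,
    Integrable (fun y => HD.Hk a x y * hdist 𝓜 g x y ^ 2) (hvol 𝓜 g) ∧
    ∫ y, HD.Hk a x y * hdist 𝓜 g x y ^ 2 ∂(hvol 𝓜 g) ≤ C * a :=
  hc_moment2 HD S

/-- first moment. -/
theorem moment1 (S : AnaSetting 𝓜 g) : ∃ C : ℝ, ∀ a : ℝ, 0 < a → ∀ x ∈ 𝓜.carrier,
    Integrable (fun y => HD.Hk a x y * hdist 𝓜 g x y) (hvol 𝓜 g) ∧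
    ∫ y, HD.Hk a x y * hdist 𝓜 g x y ∂(hvol 𝓜 g) ≤ C * Real.sqrt a :=
  hc_moment1 HD S

/-- initial values, continuous data: joint continuity on `[0,∞) × M`. -/
theorem continuousOn_P (S : AnaSetting 𝓜 g) (ho : o ∈ 𝓜.carrier) (hf : SubGauss 𝓜 g o f)
    (hc : ContinuousOn f 𝓜.carrier) :
    ContinuousOn (fun p : ℝ × V => if p.1 = 0 then f p.2 else HD.P p.1 f p.2)
      (Set.Ici 0 ×ˢ 𝓜.carrier) :=
  hc_continuousOn_P HD S ho hf hc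

/-- test functions: `∂_t P_t f = P_t Δ f = Δ P_t f`. -/
theorem lap_P_test (S : AnaSetting 𝓜 g) (hf : 𝓜.Smooth f) (hc : 𝓜.CSupp f) (ht : 0 < t)
    (hx : x ∈ 𝓜.carrier) : lap 𝓜 g (HD.P t f) x = HD.P t (lap 𝓜 g f) x :=
  hc_lap_P_test HD S hf hc ht hx

/-- Li-Yau applied to `1 + P_a f` and `2 - P_a f`: bounded data. -/
theorem bounded_data (S : AnaSetting 𝓜 g) : ∃ C : ℝ, ∀ f : V → ℝ, Measurable f →
    (∀ y, 0 ≤ f y ∧ f y ≤ 1) → ∀ a : ℝ, 0 < a → ∀ x ∈ 𝓜.carrier,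
      |lap 𝓜 g (HD.P a f) x| ≤ C / a ∧ gradSq 𝓜 g (HD.P a f) x ≤ C / a :=
  hc_bounded_data HD S

/-- **reverse Poincare inequality** (Bakry-Emery; `s gradSq u_s + u_s²/2` is a bounded subsolution): smooth bounded data. -/
theorem reverse_poincare (S : AnaSetting 𝓜 g) (hf : 𝓜.Smooth f) {Λ : ℝ}
    (hΛ : ∀ y ∈ 𝓜.carrier, |f y| ≤ Λ) {b : ℝ} (hb : 0 < b) (hx : x ∈ 𝓜.carrier) :
    gradSq 𝓜 g (HD.P b f) x ≤ (HD.P b (fun y => f y ^ 2) x - HD.P b f x ^ 2) / (2 * b) :=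
  hc_reverse_poincare HD S hf hΛ hb hx

/-- consequence: `0 ≤ f ≤ Λ` smooth: `gradSq (P_b f) ≤ Λ P_b f / (2 b)`. -/
theorem gradSq_P_le (S : AnaSetting 𝓜 g) (hf : 𝓜.Smooth f) {Λ : ℝ}
    (hΛ : ∀ y ∈ 𝓜.carrier, 0 ≤ f y ∧ f y ≤ Λ) {b : ℝ} (hb : 0 < b) (hx : x ∈ 𝓜.carrier) :
    gradSq 𝓜 g (HD.P b f) x ≤ Λ * HD.P b f x / (2 * b) :=
  hc_gradSq_P_le HD S hf hΛ hb hx

/-- **annular summation** (flow.tex l.389-400): if the integrals of `f ≥ 0` over the balls `B(o,R)`, `R ≥ L`, are at most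
`m (R/L)^q Vol B(o,R)`, then `P_b f ≤ C (L/√b)^{2n} m` on `B(o, C₀ L)` for `0 < b ≤ L²`. -/
theorem P_le_of_avg (S : AnaSetting 𝓜 g) (C₀ : ℝ) (q : ℕ) : ∃ C : ℝ, ∀ (o x : V) (L b m : ℝ) (f : V → ℝ),
    o ∈ 𝓜.carrier → x ∈ 𝓜.carrier → hdist 𝓜 g o x ≤ C₀ * L → 0 < b → b ≤ L ^ 2 → 0 < L →
    AEStronglyMeasurable f (hvol 𝓜 g) → (∀ y ∈ 𝓜.carrier, 0 ≤ f y) →
    (∀ R : ℝ, L ≤ R → IntegrableOn f (hball 𝓜 g o R) (hvol 𝓜 g) ∧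
      ∫ y in hball 𝓜 g o R, f y ∂(hvol 𝓜 g) ≤ m * (R / L) ^ q * Vb 𝓜 g o R) →
    Integrable (fun y => HD.Hk b x y * f y) (hvol 𝓜 g) ∧
    HD.P b f x ≤ C * (L / Real.sqrt b) ^ (2 * n) * m :=
  hc_P_le_of_avg HD S C₀ q

/-- the gradient version. -/
theorem gradSq_P_le_of_avg (S : AnaSetting 𝓜 g) (C₀ : ℝ) (q : ℕ) :
    ∃ C : ℝ, ∀ (o x : V) (L b m : ℝ) (f : V → ℝ),
    o ∈ 𝓜.carrier → x ∈ 𝓜.carrier → hdist 𝓜 g o x ≤ C₀ * L → 0 < b → b ≤ L ^ 2 → 0 < L →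
    AEStronglyMeasurable f (hvol 𝓜 g) → (∀ y ∈ 𝓜.carrier, 0 ≤ f y) →
    (∀ R : ℝ, L ≤ R → IntegrableOn f (hball 𝓜 g o R) (hvol 𝓜 g) ∧
      ∫ y in hball 𝓜 g o R, f y ∂(hvol 𝓜 g) ≤ m * (R / L) ^ q * Vb 𝓜 g o R) →
    gradSq 𝓜 g (HD.P b f) x ≤ (C / Real.sqrt b * (L / Real.sqrt b) ^ (2 * n) * m) ^ 2 :=
  hc_gradSq_P_le_of_avg HD S C₀ q

/-! ### with the two-sided cutoffs -/

/-- sub-mean value inequality. -/
theorem submean (S : AnaSetting 𝓜 g) (ho : o ∈ 𝓜.carrier) (DC : LapCutoffs 𝓜 g o) {w : V → ℝ}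
    (hw : 𝓜.Smooth w) (hsub : ∀ y ∈ 𝓜.carrier, 0 ≤ lap 𝓜 g w y) (hG : SubGauss 𝓜 g o w) (ht : 0 < t)
    (hx : x ∈ 𝓜.carrier) : w x ≤ HD.P t w x :=
  hc_submean HD S ho DC hw hsub hG ht hx

/-- **Duhamel identity** `P_t U - U = ∫₀ᵗ P_s Δ U ds` for smooth `U` with `U, ΔU ∈ SubGauss` (flow.tex l.430-450). -/
theorem duhamel (S : AnaSetting 𝓜 g) (ho : o ∈ 𝓜.carrier) (DC : LapCutoffs 𝓜 g o) {U : V → ℝ}
    (hU : 𝓜.Smooth U) (hG : SubGauss 𝓜 g o U) (hG' : SubGauss 𝓜 g o (lap 𝓜 g U)) (ht : 0 < t)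
    (hx : x ∈ 𝓜.carrier) :
    IntervalIntegrable (fun s => HD.P s (lap 𝓜 g U) x) volume 0 t ∧
    HD.P t U x - U x = HD.Pot t (lap 𝓜 g U) x :=
  hc_duhamel HD S ho DC hU hG hG' ht hx

/-! ### potentials -/

/-- the potential of smooth data: smooth on `[0,∞) × M`, `∂_b Pot = P_b f`, `Δ Pot_b = P_b f - f`. -/
theorem smoothST_Pot (S : AnaSetting 𝓜 g) (ho : o ∈ 𝓜.carrier) (hf : 𝓜.Smooth f)
    (hG : SubGauss 𝓜 g o f) : 𝓜.SmoothST (Set.Ici 0) (fun b => HD.Pot b f) :=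
  hc_smoothST_Pot HD S ho hf hG

theorem lap_Pot (S : AnaSetting 𝓜 g) (ho : o ∈ 𝓜.carrier) (hf : 𝓜.Smooth f) (hG : SubGauss 𝓜 g o f)
    {b : ℝ} (hb : 0 < b) (hx : x ∈ 𝓜.carrier) : lap 𝓜 g (HD.Pot b f) x = HD.P b f x - f x :=
  hc_lap_Pot HD S ho hf hG hb hx

/-- gradient of the potential (Minkowski). -/
theorem sqrt_gradSq_Pot_le (S : AnaSetting 𝓜 g) (ho : o ∈ 𝓜.carrier) (hf : 𝓜.Smooth f)
    (hG : SubGauss 𝓜 g o f) {b : ℝ} (hb : 0 < b) (hx : x ∈ 𝓜.carrier) :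
    IntervalIntegrable (fun s => Real.sqrt (gradSq 𝓜 g (HD.P s f) x)) volume 0 b ∧
    Real.sqrt (gradSq 𝓜 g (HD.Pot b f) x) ≤ ∫ s in (0 : ℝ)..b, Real.sqrt (gradSq 𝓜 g (HD.P s f) x) :=
  hc_sqrt_gradSq_Pot_le HD S ho hf hG hb hx

/-- `nt2` with its upper bound: `0 ≤ A + dd Pot_b (tr A) ≤ (P_b tr A) g`. -/
theorem nt2_upper (S : AnaSetting 𝓜 g) {A : HFam V (Fin n)} (hA : IsHForm 𝓜 A)
    (hcl : IsClosedForm 𝓜 A) (h0 : leF 𝓜 0 A) (h1 : leF 𝓜 A g) {b : ℝ} (hb : 0 < b) :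
    leF 𝓜 (A + ddc (HD.Pot b (tr 𝓜 g A))) (smulF (HD.P b (tr 𝓜 g A)) g) :=
  hc_nt2_upper HD S hA hcl h0 h1 hb

end HeatData

end Claimed.Agent.R316
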